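import Vale.Agent.P021.Bdl.B3

set_option autoImplicit false

/-!
# The piecewise linear majorant of the rank function
-/

namespace Vale.Agent.P021.H749

open Vale.Agent.P021.Det

/-- the clamp function -/
noncomputable def T (a b y : ℝ) : ℝ := max (b - y) 0 - max (a - y) 0

lemma T_lo {a b y : ℝ} (h : y ≤ a) (hab : a ≤ b) : T a b y = b - a := by
  rw [T, max_eq_left (by linarith), max_eq_left (by linarith)]; ring

lemma T_mid {a b y : ℝ} (h : a ≤ y) (h' : y ≤ b) : T a b y = b - y := by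
  rw [T, max_eq_left (by linarith), max_eq_right (by linarith)]; ring

lemma T_hi {a b y : ℝ} (h : b ≤ y) (hab : a ≤ b) : T a b y = 0 := by
  rw [T, max_eq_right (by linarith), max_eq_right (by linarith)]; ring

/-- the majorant -/
noncomputable def G (y : ℝ) : ℝ :=
  5 * T (31 / 5) (32 / 5) y + 5 / 2 * T (32 / 5) (13 / 2) y - 11 / 2 * T (13 / 2) (74 / 11) y +
    7 / 2 * T (74 / 7) (32 / 3) y + 2 * T (32 / 3) 12 y + 3 / 2 * T 12 13 y -
    5 / 2 * T 13 (74 / 5) y + 3 / 2 * T (74 / 3) 26 y + 1 / 2 * T 26 32 y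

lemma G_0 {y : ℝ} (h2 : y ≤ 31 / 5) : G y = 5 + (0) * y := by
  rw [G, T_lo (a := 31 / 5) (b := 32 / 5) (y := y) (by linarith) (by norm_num),
    T_lo (a := 32 / 5) (b := 13 / 2) (y := y) (by linarith) (by norm_num),
    T_lo (a := 13 / 2) (b := 74 / 11) (y := y) (by linarith) (by norm_num),
    T_lo (a := 74 / 7) (b := 32 / 3) (y := y) (by linarith) (by norm_num),
    T_lo (a := 32 / 3) (b := 12) (y := y) (by linarith) (by norm_num),
    T_lo (a := 12) (b := 13) (y := y) (by linarith) (by norm_num),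
    T_lo (a := 13) (b := 74 / 5) (y := y) (by linarith) (by norm_num),
    T_lo (a := 74 / 3) (b := 26) (y := y) (by linarith) (by norm_num),
    T_lo (a := 26) (b := 32) (y := y) (by linarith) (by norm_num)]
  ring

lemma G_1 {y : ℝ} (h1 : 31 / 5 ≤ y) (h2 : y ≤ 32 / 5) : G y = 36 + (-5) * y := by
  rw [G, T_mid (a := 31 / 5) (b := 32 / 5) (y := y) h1 h2,
    T_lo (a := 32 / 5) (b := 13 / 2) (y := y) (by linarith) (by norm_num),
    T_lo (a := 13 / 2) (b := 74 / 11) (y := y) (by linarith) (by norm_num),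
    T_lo (a := 74 / 7) (b := 32 / 3) (y := y) (by linarith) (by norm_num),
    T_lo (a := 32 / 3) (b := 12) (y := y) (by linarith) (by norm_num),
    T_lo (a := 12) (b := 13) (y := y) (by linarith) (by norm_num),
    T_lo (a := 13) (b := 74 / 5) (y := y) (by linarith) (by norm_num),
    T_lo (a := 74 / 3) (b := 26) (y := y) (by linarith) (by norm_num),
    T_lo (a := 26) (b := 32) (y := y) (by linarith) (by norm_num)]
  ring

lemma win2R_1 {y : ℝ} (h1 : 31 / 5 ≤ y) (h2 : y ≤ 32 / 5) : win2R 6 13 26 5 y = 36 + (-5) * y := by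
  rw [win2R, max_eq_right (by linarith : 2 * y - 13 ≤ (0 : ℝ)),
    max_eq_left (by linarith : (0 : ℝ) ≤ 3 * y - 2 * 6),
    max_eq_left (by linarith : (0 : ℝ) ≤ 26 - 4 * y),
    max_eq_left (by linarith : (0 : ℝ) ≤ 2 * 6 + 4 * 13 - 2 * 26 + 4 * 5 - 5 * y)]
  ring

lemma G_2 {y : ℝ} (h1 : 32 / 5 ≤ y) (h2 : y ≤ 13 / 2) : G y = 20 + (-5 / 2) * y := by
  rw [G, T_hi (a := 31 / 5) (b := 32 / 5) (y := y) (by linarith) (by norm_num),
    T_mid (a := 32 / 5) (b := 13 / 2) (y := y) h1 h2,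
    T_lo (a := 13 / 2) (b := 74 / 11) (y := y) (by linarith) (by norm_num),
    T_lo (a := 74 / 7) (b := 32 / 3) (y := y) (by linarith) (by norm_num),
    T_lo (a := 32 / 3) (b := 12) (y := y) (by linarith) (by norm_num),
    T_lo (a := 12) (b := 13) (y := y) (by linarith) (by norm_num),
    T_lo (a := 13) (b := 74 / 5) (y := y) (by linarith) (by norm_num),
    T_lo (a := 74 / 3) (b := 26) (y := y) (by linarith) (by norm_num),
    T_lo (a := 26) (b := 32) (y := y) (by linarith) (by norm_num)]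
  ring

lemma win2R_2 {y : ℝ} (h1 : 32 / 5 ≤ y) (h2 : y ≤ 13 / 2) : win2R 6 13 26 5 y = 20 + (-5 / 2) * y := by
  rw [win2R, max_eq_right (by linarith : 2 * y - 13 ≤ (0 : ℝ)),
    max_eq_left (by linarith : (0 : ℝ) ≤ 3 * y - 2 * 6),
    max_eq_left (by linarith : (0 : ℝ) ≤ 26 - 4 * y),
    max_eq_right (by linarith : 2 * 6 + 4 * 13 - 2 * 26 + 4 * 5 - 5 * y ≤ (0 : ℝ))]
  ring

lemma G_3 {y : ℝ} (h1 : 13 / 2 ≤ y) (h2 : y ≤ 74 / 11) : G y = -32 + (11 / 2) * y := by
  rw [G, T_hi (a := 31 / 5) (b := 32 / 5) (y := y) (by linarith) (by norm_num),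
    T_hi (a := 32 / 5) (b := 13 / 2) (y := y) (by linarith) (by norm_num),
    T_mid (a := 13 / 2) (b := 74 / 11) (y := y) h1 h2,
    T_lo (a := 74 / 7) (b := 32 / 3) (y := y) (by linarith) (by norm_num),
    T_lo (a := 32 / 3) (b := 12) (y := y) (by linarith) (by norm_num),
    T_lo (a := 12) (b := 13) (y := y) (by linarith) (by norm_num),
    T_lo (a := 13) (b := 74 / 5) (y := y) (by linarith) (by norm_num),
    T_lo (a := 74 / 3) (b := 26) (y := y) (by linarith) (by norm_num),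
    T_lo (a := 26) (b := 32) (y := y) (by linarith) (by norm_num)]
  ring

lemma win2R_3 {y : ℝ} (h1 : 13 / 2 ≤ y) (h2 : y ≤ 74 / 11) : win2R 6 13 26 5 y = -32 + (11 / 2) * y := by
  rw [win2R, max_eq_left (by linarith : (0 : ℝ) ≤ 2 * y - 13),
    max_eq_left (by linarith : (0 : ℝ) ≤ 3 * y - 2 * 6),
    max_eq_right (by linarith : 26 - 4 * y ≤ (0 : ℝ)),
    max_eq_right (by linarith : 2 * 6 + 4 * 13 - 2 * 26 + 4 * 5 - 5 * y ≤ (0 : ℝ))]
  ring

lemma G_4 {y : ℝ} (h1 : 74 / 11 ≤ y) (h2 : y ≤ 74 / 7) : G y = 5 + (0) * y := by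
  rw [G, T_hi (a := 31 / 5) (b := 32 / 5) (y := y) (by linarith) (by norm_num),
    T_hi (a := 32 / 5) (b := 13 / 2) (y := y) (by linarith) (by norm_num),
    T_hi (a := 13 / 2) (b := 74 / 11) (y := y) (by linarith) (by norm_num),
    T_lo (a := 74 / 7) (b := 32 / 3) (y := y) (by linarith) (by norm_num),
    T_lo (a := 32 / 3) (b := 12) (y := y) (by linarith) (by norm_num),
    T_lo (a := 12) (b := 13) (y := y) (by linarith) (by norm_num),
    T_lo (a := 13) (b := 74 / 5) (y := y) (by linarith) (by norm_num),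
    T_lo (a := 74 / 3) (b := 26) (y := y) (by linarith) (by norm_num),
    T_lo (a := 26) (b := 32) (y := y) (by linarith) (by norm_num)]
  ring

lemma G_5 {y : ℝ} (h1 : 74 / 7 ≤ y) (h2 : y ≤ 32 / 3) : G y = 42 + (-7 / 2) * y := by
  rw [G, T_hi (a := 31 / 5) (b := 32 / 5) (y := y) (by linarith) (by norm_num),
    T_hi (a := 32 / 5) (b := 13 / 2) (y := y) (by linarith) (by norm_num),
    T_hi (a := 13 / 2) (b := 74 / 11) (y := y) (by linarith) (by norm_num),
    T_mid (a := 74 / 7) (b := 32 / 3) (y := y) h1 h2,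
    T_lo (a := 32 / 3) (b := 12) (y := y) (by linarith) (by norm_num),
    T_lo (a := 12) (b := 13) (y := y) (by linarith) (by norm_num),
    T_lo (a := 13) (b := 74 / 5) (y := y) (by linarith) (by norm_num),
    T_lo (a := 74 / 3) (b := 26) (y := y) (by linarith) (by norm_num),
    T_lo (a := 26) (b := 32) (y := y) (by linarith) (by norm_num)]
  ring

lemma winR_5 {y : ℝ} (h1 : 74 / 7 ≤ y) (h2 : y ≤ 32 / 3) : winR 6 13 26 5 y = 42 + (-7 / 2) * y := by
  rw [winR, max_eq_right (by linarith : y - 13 ≤ (0 : ℝ)),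
    max_eq_right (by linarith : y - 2 * 6 ≤ (0 : ℝ)),
    max_eq_left (by linarith : (0 : ℝ) ≤ 26 - 2 * y),
    max_eq_left (by linarith : (0 : ℝ) ≤ 2 * 6 + 4 * 13 - 2 * 26 + 4 * 5 - 3 * y)]
  ring

lemma G_6 {y : ℝ} (h1 : 32 / 3 ≤ y) (h2 : y ≤ 12) : G y = 26 + (-2) * y := by
  rw [G, T_hi (a := 31 / 5) (b := 32 / 5) (y := y) (by linarith) (by norm_num),
    T_hi (a := 32 / 5) (b := 13 / 2) (y := y) (by linarith) (by norm_num),
    T_hi (a := 13 / 2) (b := 74 / 11) (y := y) (by linarith) (by norm_num),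
    T_hi (a := 74 / 7) (b := 32 / 3) (y := y) (by linarith) (by norm_num),
    T_mid (a := 32 / 3) (b := 12) (y := y) h1 h2,
    T_lo (a := 12) (b := 13) (y := y) (by linarith) (by norm_num),
    T_lo (a := 13) (b := 74 / 5) (y := y) (by linarith) (by norm_num),
    T_lo (a := 74 / 3) (b := 26) (y := y) (by linarith) (by norm_num),
    T_lo (a := 26) (b := 32) (y := y) (by linarith) (by norm_num)]
  ring

lemma winR_6 {y : ℝ} (h1 : 32 / 3 ≤ y) (h2 : y ≤ 12) : winR 6 13 26 5 y = 26 + (-2) * y := by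
  rw [winR, max_eq_right (by linarith : y - 13 ≤ (0 : ℝ)),
    max_eq_right (by linarith : y - 2 * 6 ≤ (0 : ℝ)),
    max_eq_left (by linarith : (0 : ℝ) ≤ 26 - 2 * y),
    max_eq_right (by linarith : 2 * 6 + 4 * 13 - 2 * 26 + 4 * 5 - 3 * y ≤ (0 : ℝ))]
  ring

lemma G_7 {y : ℝ} (h1 : 12 ≤ y) (h2 : y ≤ 13) : G y = 20 + (-3 / 2) * y := by
  rw [G, T_hi (a := 31 / 5) (b := 32 / 5) (y := y) (by linarith) (by norm_num),
    T_hi (a := 32 / 5) (b := 13 / 2) (y := y) (by linarith) (by norm_num),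
    T_hi (a := 13 / 2) (b := 74 / 11) (y := y) (by linarith) (by norm_num),
    T_hi (a := 74 / 7) (b := 32 / 3) (y := y) (by linarith) (by norm_num),
    T_hi (a := 32 / 3) (b := 12) (y := y) (by linarith) (by norm_num),
    T_mid (a := 12) (b := 13) (y := y) h1 h2,
    T_lo (a := 13) (b := 74 / 5) (y := y) (by linarith) (by norm_num),
    T_lo (a := 74 / 3) (b := 26) (y := y) (by linarith) (by norm_num),
    T_lo (a := 26) (b := 32) (y := y) (by linarith) (by norm_num)]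
  ring

lemma winR_7 {y : ℝ} (h1 : 12 ≤ y) (h2 : y ≤ 13) : winR 6 13 26 5 y = 20 + (-3 / 2) * y := by
  rw [winR, max_eq_right (by linarith : y - 13 ≤ (0 : ℝ)),
    max_eq_left (by linarith : (0 : ℝ) ≤ y - 2 * 6),
    max_eq_left (by linarith : (0 : ℝ) ≤ 26 - 2 * y),
    max_eq_right (by linarith : 2 * 6 + 4 * 13 - 2 * 26 + 4 * 5 - 3 * y ≤ (0 : ℝ))]
  ring

lemma G_8 {y : ℝ} (h1 : 13 ≤ y) (h2 : y ≤ 74 / 5) : G y = -32 + (5 / 2) * y := by
  rw [G, T_hi (a := 31 / 5) (b := 32 / 5) (y := y) (by linarith) (by norm_num),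
    T_hi (a := 32 / 5) (b := 13 / 2) (y := y) (by linarith) (by norm_num),
    T_hi (a := 13 / 2) (b := 74 / 11) (y := y) (by linarith) (by norm_num),
    T_hi (a := 74 / 7) (b := 32 / 3) (y := y) (by linarith) (by norm_num),
    T_hi (a := 32 / 3) (b := 12) (y := y) (by linarith) (by norm_num),
    T_hi (a := 12) (b := 13) (y := y) (by linarith) (by norm_num),
    T_mid (a := 13) (b := 74 / 5) (y := y) h1 h2,
    T_lo (a := 74 / 3) (b := 26) (y := y) (by linarith) (by norm_num),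
    T_lo (a := 26) (b := 32) (y := y) (by linarith) (by norm_num)]
  ring

lemma winR_8 {y : ℝ} (h1 : 13 ≤ y) (h2 : y ≤ 74 / 5) : winR 6 13 26 5 y = -32 + (5 / 2) * y := by
  rw [winR, max_eq_left (by linarith : (0 : ℝ) ≤ y - 13),
    max_eq_left (by linarith : (0 : ℝ) ≤ y - 2 * 6),
    max_eq_right (by linarith : 26 - 2 * y ≤ (0 : ℝ)),
    max_eq_right (by linarith : 2 * 6 + 4 * 13 - 2 * 26 + 4 * 5 - 3 * y ≤ (0 : ℝ))]
  ring

lemma G_9 {y : ℝ} (h1 : 74 / 5 ≤ y) (h2 : y ≤ 74 / 3) : G y = 5 + (0) * y := by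
  rw [G, T_hi (a := 31 / 5) (b := 32 / 5) (y := y) (by linarith) (by norm_num),
    T_hi (a := 32 / 5) (b := 13 / 2) (y := y) (by linarith) (by norm_num),
    T_hi (a := 13 / 2) (b := 74 / 11) (y := y) (by linarith) (by norm_num),
    T_hi (a := 74 / 7) (b := 32 / 3) (y := y) (by linarith) (by norm_num),
    T_hi (a := 32 / 3) (b := 12) (y := y) (by linarith) (by norm_num),
    T_hi (a := 12) (b := 13) (y := y) (by linarith) (by norm_num),
    T_hi (a := 13) (b := 74 / 5) (y := y) (by linarith) (by norm_num),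
    T_lo (a := 74 / 3) (b := 26) (y := y) (by linarith) (by norm_num),
    T_lo (a := 26) (b := 32) (y := y) (by linarith) (by norm_num)]
  ring

lemma G_10 {y : ℝ} (h1 : 74 / 3 ≤ y) (h2 : y ≤ 26) : G y = 42 + (-3 / 2) * y := by
  rw [G, T_hi (a := 31 / 5) (b := 32 / 5) (y := y) (by linarith) (by norm_num),
    T_hi (a := 32 / 5) (b := 13 / 2) (y := y) (by linarith) (by norm_num),
    T_hi (a := 13 / 2) (b := 74 / 11) (y := y) (by linarith) (by norm_num),
    T_hi (a := 74 / 7) (b := 32 / 3) (y := y) (by linarith) (by norm_num),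
    T_hi (a := 32 / 3) (b := 12) (y := y) (by linarith) (by norm_num),
    T_hi (a := 12) (b := 13) (y := y) (by linarith) (by norm_num),
    T_hi (a := 13) (b := 74 / 5) (y := y) (by linarith) (by norm_num),
    T_mid (a := 74 / 3) (b := 26) (y := y) h1 h2,
    T_lo (a := 26) (b := 32) (y := y) (by linarith) (by norm_num)]
  ring

lemma plainR_10 {y : ℝ} (h1 : 74 / 3 ≤ y) (h2 : y ≤ 26) : plainR 6 13 26 5 y = 42 + (-3 / 2) * y := by
  rw [plainR, max_eq_left (by linarith : (0 : ℝ) ≤ 26 - y),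
    max_eq_left (by linarith : (0 : ℝ) ≤ 2 * 6 + 4 * 13 - 2 * 26 + 4 * 5 - y)]
  ring

lemma G_11 {y : ℝ} (h1 : 26 ≤ y) (h2 : y ≤ 32) : G y = 16 + (-1 / 2) * y := by
  rw [G, T_hi (a := 31 / 5) (b := 32 / 5) (y := y) (by linarith) (by norm_num),
    T_hi (a := 32 / 5) (b := 13 / 2) (y := y) (by linarith) (by norm_num),
    T_hi (a := 13 / 2) (b := 74 / 11) (y := y) (by linarith) (by norm_num),
    T_hi (a := 74 / 7) (b := 32 / 3) (y := y) (by linarith) (by norm_num),
    T_hi (a := 32 / 3) (b := 12) (y := y) (by linarith) (by norm_num),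
    T_hi (a := 12) (b := 13) (y := y) (by linarith) (by norm_num),
    T_hi (a := 13) (b := 74 / 5) (y := y) (by linarith) (by norm_num),
    T_hi (a := 74 / 3) (b := 26) (y := y) (by linarith) (by norm_num),
    T_mid (a := 26) (b := 32) (y := y) h1 h2]
  ring

lemma plainR_11 {y : ℝ} (h1 : 26 ≤ y) (h2 : y ≤ 32) : plainR 6 13 26 5 y = 16 + (-1 / 2) * y := by
  rw [plainR, max_eq_right (by linarith : 26 - y ≤ (0 : ℝ)),
    max_eq_left (by linarith : (0 : ℝ) ≤ 2 * 6 + 4 * 13 - 2 * 26 + 4 * 5 - y)]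
  ring

lemma G_12 {y : ℝ} (h1 : 32 ≤ y) : G y = 0 + (0) * y := by
  rw [G, T_hi (a := 31 / 5) (b := 32 / 5) (y := y) (by linarith) (by norm_num),
    T_hi (a := 32 / 5) (b := 13 / 2) (y := y) (by linarith) (by norm_num),
    T_hi (a := 13 / 2) (b := 74 / 11) (y := y) (by linarith) (by norm_num),
    T_hi (a := 74 / 7) (b := 32 / 3) (y := y) (by linarith) (by norm_num),
    T_hi (a := 32 / 3) (b := 12) (y := y) (by linarith) (by norm_num),
    T_hi (a := 12) (b := 13) (y := y) (by linarith) (by norm_num),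
    T_hi (a := 13) (b := 74 / 5) (y := y) (by linarith) (by norm_num),
    T_hi (a := 74 / 3) (b := 26) (y := y) (by linarith) (by norm_num),
    T_hi (a := 26) (b := 32) (y := y) (by linarith) (by norm_num)]
  ring

lemma plainR_12 {y : ℝ} (h1 : 32 ≤ y) : plainR 6 13 26 5 y = 0 + (0) * y := by
  rw [plainR, max_eq_right (by linarith : 26 - y ≤ (0 : ℝ)),
    max_eq_right (by linarith : 2 * 6 + 4 * 13 - 2 * 26 + 4 * 5 - y ≤ (0 : ℝ))]
  ring

lemma bad3R_le_K (y : ℝ) : bad3R 6 13 26 5 y ≤ 5 := (min_le_left _ _).trans (min_le_left _ _)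

lemma bad3R_le_plain (y : ℝ) : bad3R 6 13 26 5 y ≤ plainR 6 13 26 5 y :=
  (min_le_left _ _).trans ((min_le_right _ _).trans (min_le_left _ _))

lemma bad3R_le_win (y : ℝ) : bad3R 6 13 26 5 y ≤ winR 6 13 26 5 y :=
  (min_le_left _ _).trans ((min_le_right _ _).trans (min_le_right _ _))

lemma bad3R_le_win2 (y : ℝ) : bad3R 6 13 26 5 y ≤ win2R 6 13 26 5 y := min_le_right _ _

theorem maj (y : ℝ) : bad3R 6 13 26 5 y ≤ G y := by
  rcases le_total y (31 / 5) with h0 | h0
  · rw [G_0 h0]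
    have := bad3R_le_K y
    linarith
  rcases le_total y (32 / 5) with h1 | h1
  · rw [G_1 h0 h1, ← win2R_1 h0 h1]
    exact bad3R_le_win2 y
  rcases le_total y (13 / 2) with h2 | h2
  · rw [G_2 h1 h2, ← win2R_2 h1 h2]
    exact bad3R_le_win2 y
  rcases le_total y (74 / 11) with h3 | h3
  · rw [G_3 h2 h3, ← win2R_3 h2 h3]
    exact bad3R_le_win2 y
  rcases le_total y (74 / 7) with h4 | h4
  · rw [G_4 h3 h4]
    have := bad3R_le_K y
    linarith
  rcases le_total y (32 / 3) with h5 | h5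
  · rw [G_5 h4 h5, ← winR_5 h4 h5]
    exact bad3R_le_win y
  rcases le_total y (12) with h6 | h6
  · rw [G_6 h5 h6, ← winR_6 h5 h6]
    exact bad3R_le_win y
  rcases le_total y (13) with h7 | h7
  · rw [G_7 h6 h7, ← winR_7 h6 h7]
    exact bad3R_le_win y
  rcases le_total y (74 / 5) with h8 | h8
  · rw [G_8 h7 h8, ← winR_8 h7 h8]
    exact bad3R_le_win y
  rcases le_total y (74 / 3) with h9 | h9
  · rw [G_9 h8 h9]
    have := bad3R_le_K y
    linarith
  rcases le_total y (26) with h10 | h10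
  · rw [G_10 h9 h10, ← plainR_10 h9 h10]
    exact bad3R_le_plain y
  rcases le_total y (32) with h11 | h11
  · rw [G_11 h10 h11, ← plainR_11 h10 h11]
    exact bad3R_le_plain y
  rw [G_12 h11, ← plainR_12 h11]
  exact bad3R_le_plain y

lemma G_nonneg (y : ℝ) : 0 ≤ G y := (bad3R_nonneg (by norm_num)).trans (maj y)

end Vale.Agent.P021.H749
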